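import Vale.Agent.P237.Constant
import Vale.Agent.P237.ConstOneDim
import Vale.Agent.P237.ConstBounds

/-! Petty's projection-volume inequality in every dimension, up to a universal constant. -/

namespace Vale.Agent.Results.P237.PettyConstant

open MeasureTheory Set Metric
open Vale.Agent.P237 (E ProjectionBody)

/-- There is a universal `c > 0` with `|ΠK| ≥ c κ_{n-1}^n κ_n^{2-n} |K|^{n-1}` for every `n ≥ 3`
and every convex body `K ⊆ ℝⁿ`. -/
theorem result :
    ∃ c : ℝ, 0 < c ∧ ∀ n : ℕ, 3 ≤ n → ∀ K : Set (E n), Convex ℝ K → IsCompact K →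
      (interior K).Nonempty →
      c * ((volume (closedBall (0 : E (n - 1)) 1)).toReal ^ n *
          (volume (closedBall (0 : E n) 1)).toReal ^ (2 - (n : ℤ))) *
        (volume K).toReal ^ (n - 1) ≤ (volume (ProjectionBody K)).toReal :=
  Vale.Agent.P237.Constant.petty_constant Vale.Agent.P237.constOneDimSpec
    Vale.Agent.P237.constBoundSpec

end Vale.Agent.Results.P237.PettyConstant
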