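import Vale.Agent.P237.Five.CertFinal
import Vale.Agent.P237.Six.CertFinal

/-! Petty's projection-volume conjecture in dimensions five and six, with the equality case. -/

namespace Vale.Agent.Results.P237.PettyFiveSix

open MeasureTheory Set
open Vale.Agent.P237 (E ProjectionBody shadow)
open Vale.Agent.P237.Five (IsEllipsoid5)
open Vale.Agent.P237.Six (IsEllipsoid6)
open scoped RealInnerProductSpace

/-- For every convex body `K` in `ℝ⁵`, resp. `ℝ⁶`: the projection body has support function
`u ↦ vol (proj_{u^⊥} K)`, `|ΠK| ≥ (3375π⁴/16384)|K|⁴`, resp. `|ΠK| ≥ (4194304/140625)|K|⁵`,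
and equality holds exactly for ellipsoids. -/
theorem result :
    (∀ K : Set (E 5), Convex ℝ K → IsCompact K → (interior K).Nonempty →
      (∀ u : E 5, ‖u‖ = 1 →
        IsGreatest ((fun y => ⟪y, u⟫) '' ProjectionBody K) (shadow K u)) ∧
      3375 * Real.pi ^ 4 / 16384 * (volume K).toReal ^ 4 ≤ (volume (ProjectionBody K)).toReal ∧
      ((volume (ProjectionBody K)).toReal = 3375 * Real.pi ^ 4 / 16384 * (volume K).toReal ^ 4 ↔
        IsEllipsoid5 K)) ∧
    (∀ K : Set (E 6), Convex ℝ K → IsCompact K → (interior K).Nonempty →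
      (∀ u : E 6, ‖u‖ = 1 →
        IsGreatest ((fun y => ⟪y, u⟫) '' ProjectionBody K) (shadow K u)) ∧
      4194304 / 140625 * (volume K).toReal ^ 5 ≤ (volume (ProjectionBody K)).toReal ∧
      ((volume (ProjectionBody K)).toReal = 4194304 / 140625 * (volume K).toReal ^ 5 ↔
        IsEllipsoid6 K)) :=
  ⟨fun K hc hk hi => Vale.Agent.P237.Five.petty_five_full K hc hk hi,
    fun K hc hk hi => Vale.Agent.P237.Six.petty_six_full K hc hk hi⟩

end Vale.Agent.Results.P237.PettyFiveSix
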