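import Vale.Agent.P237.Four.Cert

/-! Petty's projection-volume conjecture in dimension four, with the equality case. -/

namespace Vale.Agent.Results.P237.PettyFour

open MeasureTheory Set
open Vale.Agent.P237 (E ProjectionBody shadow)
open Vale.Agent.P237.Four (IsEllipsoid4)
open scoped RealInnerProductSpace

/-- For every convex body `K` in `ℝ⁴`: the projection body has support function
`u ↦ vol₃ (proj_{u^⊥} K)`, `|ΠK| ≥ (1024/81)|K|³`, and equality holds exactly for ellipsoids. -/
theorem result (K : Set (E 4)) (hc : Convex ℝ K) (hk : IsCompact K)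
    (hi : (interior K).Nonempty) :
    (∀ u : E 4, ‖u‖ = 1 →
      IsGreatest ((fun y => ⟪y, u⟫) '' ProjectionBody K) (shadow K u)) ∧
    1024 / 81 * (volume K).toReal ^ 3 ≤ (volume (ProjectionBody K)).toReal ∧
    ((volume (ProjectionBody K)).toReal = 1024 / 81 * (volume K).toReal ^ 3 ↔
      IsEllipsoid4 K) :=
  Vale.Agent.P237.Four.petty_four_full K hc hk hi

end Vale.Agent.Results.P237.PettyFour
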