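import Vale.Agent.P237.Final

/-! Petty's projection-volume conjecture in dimension three, with the equality case. -/

namespace Vale.Agent.Results.P237.PettyThree

open MeasureTheory Set
open Vale.Agent.P237 (E ProjectionBody shadow IsEllipsoid)
open scoped RealInnerProductSpace

/-- For every convex body `K` in `ℝ³`: the projection body has support function
`u ↦ area (proj_{u^⊥} K)`, `|ΠK| ≥ (3π²/4)|K|²`, and equality holds exactly for ellipsoids. -/
theorem result (K : Set (E 3)) (hc : Convex ℝ K) (hk : IsCompact K)
    (hi : (interior K).Nonempty) :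
    (∀ u : E 3, ‖u‖ = 1 →
      IsGreatest ((fun y => ⟪y, u⟫) '' ProjectionBody K) (shadow K u)) ∧
    3 * Real.pi ^ 2 / 4 * (volume K).toReal ^ 2 ≤ (volume (ProjectionBody K)).toReal ∧
    ((volume (ProjectionBody K)).toReal = 3 * Real.pi ^ 2 / 4 * (volume K).toReal ^ 2 ↔
      IsEllipsoid K) :=
  Vale.Agent.P237.petty_three Vale.Agent.P237.hyps K hc hk hi

end Vale.Agent.Results.P237.PettyThree
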